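import Vale.Agent.P047.Power

namespace Vale.Agent.Results.P047.PowerGap

/-- The Fourier coefficient of `f` at `S`: the mean of `f x * ∏ i ∈ S, x i` over the uniform
measure on the cube of sign vectors (the units of the integers are exactly `1` and `-1`). -/
noncomputable def fourier {n : ℕ} (f : (Fin n → ℤˣ) → ℝ) (S : Finset (Fin n)) : ℝ :=
  (∑ x : Fin n → ℤˣ, f x * ∏ i ∈ S, ((x i : ℤ) : ℝ)) / 2 ^ n

open Classical in
/-- The degree of `f`: the largest size of a set with nonzero Fourier coefficient. -/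
noncomputable def degree {n : ℕ} (f : (Fin n → ℤˣ) → ℝ) : ℕ :=
  (Finset.univ.filter (fun S : Finset (Fin n) => fourier f S ≠ 0)).sup Finset.card

lemma main : ∃ ε c : ℝ, 0 < ε ∧ 0 < c ∧ ∀ d : ℕ, 1 ≤ d →
    ∃ (n : ℕ) (f : (Fin n → ℤˣ) → ℝ), 1 ≤ n ∧ (∀ x, f x = 1 ∨ f x = -1) ∧ degree f ≤ d ∧
      c * (d : ℝ) ^ (1 / 2 + ε) ≤ ∑ i : Fin n, fourier f {i} := by
  obtain ⟨ε, c, hε, hc, h⟩ := Vale.Agent.P047.power_gap
  refine ⟨ε, c, hε, hc, fun d hd => ?_⟩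
  obtain ⟨n, f, hb, hJ, hE⟩ := h d hd
  obtain ⟨h1, h2⟩ := Vale.Agent.P047.transfer hJ
  refine ⟨n, fun x => f (fun i => Vale.Agent.P047.toB (x i)), ?_, fun x => hb _, ?_, ?_⟩
  · rcases Nat.eq_zero_or_pos n with hn | hn
    · subst hn
      have d0 : (0 : ℝ) < d := by exact_mod_cast hd
      have h0 : 0 < c * (d : ℝ) ^ (1 / 2 + ε) := by positivity
      rw [← h2] at hE
      simp only [Finset.univ_eq_empty, Finset.sum_empty] at hE
      linarith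
    · exact hn
  · refine Finset.sup_le fun S hS => ?_
    by_contra hlt
    refine (Finset.mem_filter.1 hS).2 ?_
    unfold fourier
    rw [Vale.Agent.P047.J_fourier h1 S (not_le.1 hlt), zero_div]
  · unfold fourier
    rw [h2]
    exact hE

theorem result :
    (∀ C : ℝ, ∃ (n : ℕ) (f : (Fin n → ℤˣ) → ℝ), 1 ≤ n ∧ (∀ x, f x = 1 ∨ f x = -1) ∧
      C * Real.sqrt (degree f) < ∑ i : Fin n, fourier f {i}) ∧
    ∃ ε c : ℝ, 0 < ε ∧ 0 < c ∧ ∀ d : ℕ, 1 ≤ d →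
      ∃ (n : ℕ) (f : (Fin n → ℤˣ) → ℝ), 1 ≤ n ∧ (∀ x, f x = 1 ∨ f x = -1) ∧ degree f ≤ d ∧
        c * (d : ℝ) ^ (1 / 2 + ε) ≤ ∑ i : Fin n, fourier f {i} := by
  refine ⟨fun C => ?_, main⟩
  obtain ⟨ε, c, hε, hc, h⟩ := main
  have t : Filter.Tendsto (fun d : ℕ => (d : ℝ) ^ ε) Filter.atTop Filter.atTop :=
    (tendsto_rpow_atTop hε).comp tendsto_natCast_atTop_atTop
  obtain ⟨d, a, b⟩ := ((t.eventually_gt_atTop (|C| / c)).and (Filter.eventually_ge_atTop 1)).exists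
  obtain ⟨n, f, h1, h2, h3, h4⟩ := h d b
  refine ⟨n, f, h1, h2, lt_of_lt_of_le ?_ h4⟩
  have d0 : (0 : ℝ) < d := by exact_mod_cast b
  have s0 : 0 < Real.sqrt d := Real.sqrt_pos.2 d0
  have k : C * Real.sqrt (degree f) ≤ |C| * Real.sqrt d :=
    mul_le_mul (le_abs_self C) (Real.sqrt_le_sqrt (by exact_mod_cast h3)) (Real.sqrt_nonneg _)
      (abs_nonneg C)
  rw [Real.rpow_add d0, ← Real.sqrt_eq_rpow]
  rw [div_lt_iff₀ hc] at a
  nlinarith [mul_lt_mul_of_pos_right a s0]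

end Vale.Agent.Results.P047.PowerGap
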