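import Vale.Agent.P047.Fourier

namespace Vale.Agent.Results.P047.Unbounded

/-- The Fourier coefficient of `f` at `S`: the mean of `f x * ∏ i ∈ S, x i` over the uniform
measure on the cube of sign vectors (the units of the integers are exactly `1` and `-1`). -/
noncomputable def fourier {n : ℕ} (f : (Fin n → ℤˣ) → ℝ) (S : Finset (Fin n)) : ℝ :=
  (∑ x : Fin n → ℤˣ, f x * ∏ i ∈ S, ((x i : ℤ) : ℝ)) / 2 ^ n

open Classical in
/-- The degree of `f`: the largest size of a set with nonzero Fourier coefficient. -/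
noncomputable def degree {n : ℕ} (f : (Fin n → ℤˣ) → ℝ) : ℕ :=
  (Finset.univ.filter (fun S : Finset (Fin n) => fourier f S ≠ 0)).sup Finset.card

theorem result : ∀ C : ℝ, ∃ (n : ℕ) (f : (Fin n → ℤˣ) → ℝ), 1 ≤ n ∧
    (∀ x, f x = 1 ∨ f x = -1) ∧
    C * Real.sqrt (degree f) < ∑ i : Fin n, fourier f {i} := by
  intro C
  obtain ⟨n, D, f, hD, hb, hJ, hE⟩ := Vale.Agent.P047.exists_boolean |C|
  obtain ⟨h1, h2⟩ := Vale.Agent.P047.transfer hJ
  have hdeg : degree (fun x : Fin n → ℤˣ => f (fun i => Vale.Agent.P047.toB (x i))) ≤ D := by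
    refine Finset.sup_le fun S hS => ?_
    by_contra hlt
    refine (Finset.mem_filter.1 hS).2 ?_
    unfold fourier
    rw [Vale.Agent.P047.J_fourier h1 S (not_le.1 hlt), zero_div]
  have hsum : C * Real.sqrt (degree (fun x : Fin n → ℤˣ =>
      f (fun i => Vale.Agent.P047.toB (x i)))) < ∑ i : Fin n,
      fourier (fun x : Fin n → ℤˣ => f (fun i => Vale.Agent.P047.toB (x i))) {i} := by
    unfold fourier
    rw [h2]
    refine lt_of_le_of_lt ?_ hE
    exact mul_le_mul (le_abs_self C) (Real.sqrt_le_sqrt (by exact_mod_cast hdeg))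
      (Real.sqrt_nonneg _) (abs_nonneg C)
  refine ⟨n, _, ?_, fun x => hb _, hsum⟩
  rcases Nat.eq_zero_or_pos n with hn | hn
  · subst hn
    have h0 : 0 ≤ |C| * Real.sqrt D := by positivity
    rw [← h2] at hE
    simp at hE
    linarith
  · exact hn

end Vale.Agent.Results.P047.Unbounded
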